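import Vale.Agent.P209.H974.Wrap
import Vale.Agent.P209.H721.CLift
import Vale.Agent.P209.H686.ClockGate

set_option linter.all false

/-!
# Model M (one ball of capacity at least `R / 2`, real dimension six): definitions and rows

Source `Fin 3 → ℂ`: slot `0` is `p + i θ`, slots `1`, `2` are the discs `z_1`, `z_2`.
Target `Fin 3 → ℂ`: the homogeneous coordinates `(Z_0, Z_1, Z_3)` of the sphere of capacity `R`
of `ℂ ^ 4`, normalised by `Z_2 > 0`; the area of `Z_2` is `R` minus the sum of the others. The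
big ball is `ar Z_0 ≥ c`, where `c = R - r_0`.
-/

namespace Vale.Agent.P209.H687

open Vale.Agent.P209 H684 H578 H721 H974 H686
open Vale.Agent.P209.Strong hiding chi
open scoped ContDiff

/-! ### Gates -/

/-- one-sided gate: a gate with a clock, and the facts which are used here -/
structure OG (r δ ε : ℝ) (s : ℝ → ℝ) (τ : ℂ → ℂ) (φ : ℂ → ℝ) (S G : ℂ × ℂ → ℂ × ℂ) : Prop
    extends ClockGate r δ ε s τ φ S G where
  pos1 : ∀ x : ℂ × ℂ, ‖x.2‖ < r → s x.1.re = 1 → ar (τ x.2) ≤ ar (G x).1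
  pos2 : ∀ x : ℂ × ℂ, ‖x.2‖ < r → s x.1.re = 1 → ar (τ x.2) ≤ ar (G x).2

/-- clock which is `1` on `t ≤ a` and `0` on `t ≥ b`, where `a < b` -/
structure ClockDn (a b : ℝ) (s : ℝ → ℝ) : Prop where
  smooth : ContDiff ℝ ∞ s
  nonneg : ∀ t, 0 ≤ s t
  le_one : ∀ t, s t ≤ 1
  one : ∀ t, t ≤ a → s t = 1
  zero : ∀ t, b ≤ t → s t = 0

/-! ### Functions of the actions -/

/-- `Λ`, a little above `3 u_0 + u_1 + 2 (u_0 + u_1 - c)_+` -/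
noncomputable def Lam (c m : ℝ) (u : Fin 2 → ℝ) : ℝ :=
  3 * u 0 + u 1 + 2 * H684.chi (m / 100) (u 0 + u 1 - c) + m / 2

/-- the integral period -/
noncomputable def Pm (R c : ℝ) (u : Fin 2 → ℝ) : ℝ := 3 * R + c - 4 * u 0 - 6 * u 1

/-- the length function of the model, `P - Λ = 3 R + c - 7 s - 2 χ (s - c) - m / 2` -/
noncomputable def Cm (R c m : ℝ) (u : Fin 2 → ℝ) : ℝ := Pm R c u - Lam c m u

/-- the domain of the actions -/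
def Vm (R c m : ℝ) : Set (Fin 2 → ℝ) :=
  {u | -(m / 100) < u 0 ∧ -(m / 100) < u 1 ∧ u 0 < c - m ∧ u 0 + u 1 < (R + c) / 3 - m}

/-! ### The step function and its inverse -/

/-- smooth odd step, equal to `1 / 2` for `q ≥ η / 2`, with derivative nonincreasing in `|q|` -/
structure StepQ (η : ℝ) (t : ℝ → ℝ) : Prop where
  smooth : ContDiff ℝ ∞ t
  odd : ∀ q, t (-q) = -t q
  one : ∀ q, η / 2 ≤ q → t q = 1 / 2
  le_half : ∀ q, t q ≤ 1 / 2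
  nonneg : ∀ q, 0 ≤ q → 0 ≤ t q
  deriv_nonneg : ∀ q, 0 ≤ deriv t q
  deriv_anti : ∀ q q', |q| ≤ |q'| → deriv t q' ≤ deriv t q

/-- the inverse `q` of `q + t q * Λ = Q`, for `Λ ≥ 0`, and its smoothness -/
structure InvQ (t : ℝ → ℝ) (qs : ℝ × ℝ → ℝ) : Prop where
  eq : ∀ Q Λ, 0 ≤ Λ → qs (Q, Λ) + t (qs (Q, Λ)) * Λ = Q
  uniq : ∀ q Λ, 0 ≤ Λ → qs (q + t q * Λ, Λ) = q
  smooth : ∀ Q Λ, 0 < Λ → ContDiffAt ℝ ∞ qs (Q, Λ)

/-- change of time on the left half -/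
noncomputable def FL (t : ℝ → ℝ) (R c m : ℝ) (q : ℝ × (Fin 2 → ℝ)) : ℝ :=
  (q.1 - Cm R c m q.2 / 2) + t (q.1 - Cm R c m q.2 / 2) * Lam c m q.2

/-- change of time on the right half -/
noncomputable def FR (t : ℝ → ℝ) (R c m : ℝ) (q : ℝ × (Fin 2 → ℝ)) : ℝ :=
  (q.1 + Cm R c m q.2 / 2) + t (q.1 + Cm R c m q.2 / 2) * Lam c m q.2

/-! ### The charts -/

/-- the phase of `B` -/
noncomputable def uph (B : ℂ) : ℂ := B * ((‖B‖⁻¹ : ℝ) : ℂ)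

/-- From the gauge `Z_3 > 0`, slots `(Z_0, Z_1, Z_2)`, to the gauge `Z_2 > 0`, slots
`(Z_0, Z_1, Z_3)`. -/
noncomputable def gau (R : ℝ) (X : Fin 3 → ℂ) : Fin 3 → ℂ :=
  ![X 0 * (starRingEnd ℂ) (uph (X 2)), X 1 * (starRingEnd ℂ) (uph (X 2)),
    ((Real.sqrt ((R - ar (X 0) - ar (X 1) - ar (X 2)) / Real.pi) : ℝ) : ℂ) *
      (starRingEnd ℂ) (uph (X 2))]

/-- 686's `E_left` in the frame of `κ`, with values `(Z_0, Z_1, Z_2)` in the gauge `Z_3 > 0`: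
`(V, Z_1) = g2 (κ + i θ, z_2)`, `l = ar V - c + ar z_1`, `e = V / |V|`,
`(A, B) = g1 (l, conj e * z_1)`, `Z_2 = e * A`, `Z_0 = conj e * B`. -/
noncomputable def EL (c : ℝ) (g2 g1 : ℂ × ℂ → ℂ × ℂ) (w : Fin 3 → ℂ) : Fin 3 → ℂ :=
  ![(starRingEnd ℂ) (uph (g2 (w 0, w 2)).1) *
      (g1 (((ar (g2 (w 0, w 2)).1 - c + ar (w 1) : ℝ) : ℂ),
        (starRingEnd ℂ) (uph (g2 (w 0, w 2)).1) * w 1)).2,
    (g2 (w 0, w 2)).2,
    uph (g2 (w 0, w 2)).1 *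
      (g1 (((ar (g2 (w 0, w 2)).1 - c + ar (w 1) : ℝ) : ℂ),
        (starRingEnd ℂ) (uph (g2 (w 0, w 2)).1) * w 1)).1]

/-- `κ` of the left corner, in the frame of `Q` (negative on the top side) -/
noncomputable def kap (R c : ℝ) (v : Fin 3 → ℂ) : ℝ := c - (R + c) / 2 - ar (v 1) - (v 0).re

/-- `κ` of the right corner, in the frame of `Q` (negative on the top side) -/
noncomputable def kah (R c : ℝ) (v : Fin 3 → ℂ) : ℝ := c - (R + c) / 2 - ar (v 1) + (v 0).re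

/-- from the frame of `Q` to the frame of `κ` at the left corner -/
noncomputable def toK (R c : ℝ) (v : Fin 3 → ℂ) : Fin 3 → ℂ :=
  ![((kap R c v : ℝ) : ℂ) + ((-(v 0).im : ℝ) : ℂ) * Complex.I, ee (-(v 0).im) * v 1, v 2]

/-- left chart -/
noncomputable def GamL (R c : ℝ) (g2 g1 : ℂ × ℂ → ℂ × ℂ) (v : Fin 3 → ℂ) : Fin 3 → ℂ :=
  gau R (EL c g2 g1 (toK R c v))

/-- the top side with a straight slot: slots `(x_1 + i θ, Z_2, Z_0)`, gauge `Z_3 > 0` -/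
noncomputable def preT (R c : ℝ) (τ2 : ℂ → ℂ) (φ2 : ℂ → ℝ) (g1 : ℂ × ℂ → ℂ × ℂ)
    (v : Fin 3 → ℂ) : Fin 3 → ℂ :=
  ![(((v 0).re + (R + c) / 2 + (ar (τ2 (v 2)) + ar (v 1) - c) : ℝ) : ℂ) +
      (((v 0).im : ℝ) : ℂ) * Complex.I,
    (g1 (((ar (τ2 (v 2)) + ar (v 1) - c : ℝ) : ℂ) +
      ((φ2 (v 2) - (v 0).im : ℝ) : ℂ) * Complex.I, ee (-(φ2 (v 2))) * v 1)).1,
    (g1 (((ar (τ2 (v 2)) + ar (v 1) - c : ℝ) : ℂ) +
      ((φ2 (v 2) - (v 0).im : ℝ) : ℂ) * Complex.I, ee (-(φ2 (v 2))) * v 1)).2]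

/-- the change of `x_1` which is made after the displacement: `q.2 0 = x_2`, `q.2 1 = x_0`;
`(x_1 - x_3) / 2` becomes `qs (Q, c + 3 x_2 - x_0)` where `Q = x_1 - (R + c) / 2 - x_2 + x_0` -/
noncomputable def gq (R c : ℝ) (qs : ℝ × ℝ → ℝ) (q : ℝ × (Fin 2 → ℝ)) : ℝ :=
  (R - q.2 0 - q.2 1) / 2 + qs (q.1 - (R + c) / 2 - q.2 0 + q.2 1, c + 3 * q.2 0 - q.2 1)

/-- from the straight slots `(x_1 + i a_1, Z_2, Z_0)` to `(Z_0, Z_1, Z_2)` -/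
noncomputable def ph0 (X : Fin 3 → ℂ) : Fin 3 → ℂ := ![X 2, phiA (X 0), X 1]

/-- middle chart -/
noncomputable def MC (R c : ℝ) (qs : ℝ × ℝ → ℝ) (τ2 : ℂ → ℂ) (φ2 : ℂ → ℝ)
    (g1 : ℂ × ℂ → ℂ × ℂ) (v : Fin 3 → ℂ) : Fin 3 → ℂ :=
  gau R (ph0 (clift (gq R c qs) (preT R c τ2 φ2 g1 v)))

/-- the real angle `a_1 - a_3` after the middle chart -/
noncomputable def angM (R c : ℝ) (qs : ℝ × ℝ → ℝ) (τ2 : ℂ → ℂ) (φ2 : ℂ → ℝ)
    (g1 : ℂ × ℂ → ℂ × ℂ) (v : Fin 3 → ℂ) : ℝ :=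
  (clift (gq R c qs) (preT R c τ2 φ2 g1 v) 0).im

/-- mirror in the source -/
def mir (w : Fin 3 → ℂ) : Fin 3 → ℂ := ![-(w 0), w 1, w 2]

/-- mirror in the target -/
def swp (Z : Fin 3 → ℂ) : Fin 3 → ℂ := ![Z 0, Z 2, Z 1]

/-- right chart -/
noncomputable def GamR (R c : ℝ) (g2 g1 : ℂ × ℂ → ℂ × ℂ) (v : Fin 3 → ℂ) : Fin 3 → ℂ :=
  swp (GamL R c g2 g1 (mir v))

/-- the chart around the gate `x_1 = x_3`, in the base frame (`p = x_3 - x_1`) -/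
noncomputable def G1c (g3 : ℂ × ℂ → ℂ × ℂ) (w : Fin 3 → ℂ) : Fin 3 → ℂ :=
  ![w 1, (g3 (w 0, w 2)).2, (g3 (w 0, w 2)).1]

/-- reduction of the angle to `[0, 1)` -/
noncomputable def red (w : Fin 3 → ℂ) : Fin 3 → ℂ := sft (-⌊(w 0).im⌋) w

/-- `l = x_2 - x_0` on the sides `x_1`, `x_3` -/
noncomputable def lw (R : ℝ) (w : Fin 3 → ℂ) : ℝ := R - 2 * (ar (w 1) + ar (w 2)) - |(w 0).re|

/-- All auxiliary maps of the construction. -/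
structure Dat (R c m η : ℝ) where
  t : ℝ → ℝ
  qs : ℝ × ℝ → ℝ
  s1 : ℝ → ℝ
  s2 : ℝ → ℝ
  s3 : ℝ → ℝ
  τ1 : ℂ → ℂ
  φ1 : ℂ → ℝ
  S1 : ℂ × ℂ → ℂ × ℂ
  g1 : ℂ × ℂ → ℂ × ℂ
  τ2 : ℂ → ℂ
  φ2 : ℂ → ℝ
  S2 : ℂ × ℂ → ℂ × ℂ
  g2 : ℂ × ℂ → ℂ × ℂ
  τ3 : ℂ → ℂ
  φ3 : ℂ → ℝ
  S3 : ℂ × ℂ → ℂ × ℂ
  g3 : ℂ × ℂ → ℂ × ℂ
  r : ℝ
  ε1 : ℝ
  ht : StepQ η t
  hqs : InvQ t qs
  /-- all discs of `Vm` have radius less than `r` -/
  hr : ∀ z : ℂ, ar z < (R + c) / 3 → ‖z‖ < r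
  hε1 : 0 < ε1
  hε1' : ε1 ≤ m / 100
  /-- the clock of the gate of `z_1`: on for `l ≤ l_0 + m / 4`, off for `l ≥ l_0 + m / 2`, where
  `l_0 = (R - 2 c) / 3` -/
  hs1 : ClockDn ((R - 2 * c) / 3 + m / 4) ((R - 2 * c) / 3 + m / 2) s1
  /-- the clock of the gate of `z_2` at the corner: on for `κ ≤ m / 40`, off for `κ ≥ m / 20` -/
  hs2 : ClockDn (m / 40) (m / 20) s2
  /-- the clock of the gate of `z_2` at `x_1 = x_3`: on for `|p| ≤ m / 80`, off for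
  `|p| ≥ m / 40` -/
  hs3 : ContDiff ℝ ∞ s3 ∧ (∀ x, 0 ≤ s3 x) ∧ (∀ x, s3 x ≤ 1) ∧ (∀ x, |x| ≤ m / 80 → s3 x = 1) ∧
    ∀ x, m / 40 ≤ |x| → s3 x = 0
  og1 : OG r (m / 40) ε1 s1 τ1 φ1 S1 g1
  og2 : OG r (m / 40) (m / 100) s2 τ2 φ2 S2 g2
  og3 : OG r (m / 80) (m / 100) s3 τ3 φ3 S3 g3
  /-- the displacement of `z_1` is small compared with the distance of `τ2` from the origin -/
  low2 : ∀ z : ℂ, ar z ≤ (R + c) / 3 - m / 2 → ε1 < ar (τ2 z)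

namespace Dat

variable {R c m η : ℝ} (D : Dat R c m η)

/-- left chart -/
noncomputable def cL (v : Fin 3 → ℂ) : Fin 3 → ℂ := GamL R c D.g2 D.g1 v
/-- right chart -/
noncomputable def cR (v : Fin 3 → ℂ) : Fin 3 → ℂ := GamR R c D.g2 D.g1 v
/-- middle chart -/
noncomputable def cM (v : Fin 3 → ℂ) : Fin 3 → ℂ := MC R c D.qs D.τ2 D.φ2 D.g1 v
/-- the domain of injectivity of the left chart: the area of `Z_3` is positive -/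
def DX : Set (Fin 3 → ℂ) :=
  {v | uu v ∈ Vm R c m ∧ ar (EL c D.g2 D.g1 (toK R c v) 0) + ar (EL c D.g2 D.g1 (toK R c v) 1) +
    ar (EL c D.g2 D.g1 (toK R c v) 2) < R}
/-- the real angle of the middle chart -/
noncomputable def aM (v : Fin 3 → ℂ) : ℝ := angM R c D.qs D.τ2 D.φ2 D.g1 v
noncomputable def vL (w : Fin 3 → ℂ) : Fin 3 → ℂ := clift (FL D.t R c m) (red w)
noncomputable def vR (w : Fin 3 → ℂ) : Fin 3 → ℂ := clift (FR D.t R c m) (red w)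

noncomputable def TopL (v : Fin 3 → ℂ) : Fin 3 → ℂ :=
  if -(m / 20) < kap R c v then D.cL v else D.cM v

noncomputable def TopR (v : Fin 3 → ℂ) : Fin 3 → ℂ :=
  if -(m / 20) < kah R c v then D.cR v else D.cM v

/-- the strip map -/
noncomputable def G0 (w : Fin 3 → ℂ) : Fin 3 → ℂ :=
  if (R - 2 * c) / 3 + 3 * m / 4 < lw R w then G1c D.g3 w else
    if 0 < (w 0).re then D.TopL (D.vL w) else D.TopR (D.vR w)

end Dat

/-- the target: inside the open ball of capacity `R`, outside the big ball -/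
def Tgt (R c : ℝ) (Z : Fin 3 → ℂ) : Prop := ar (Z 0) < c ∧ ar (Z 0) + ar (Z 1) + ar (Z 2) < R

/-- `x_2 - x_0` of a point of the target -/
noncomputable def lim (R : ℝ) (Z : Fin 3 → ℂ) : ℝ :=
  R - ar (Z 0) - ar (Z 1) - ar (Z 2) - ar (Z 0)

/-- `(x_1 - x_3) / 2` of a point of the target -/
noncomputable def qim (Z : Fin 3 → ℂ) : ℝ := (ar (Z 1) - ar (Z 2)) / 2

/-- a smaller explicit domain of the left chart -/
def DL (R c m : ℝ) : Set (Fin 3 → ℂ) :=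
  {v | uu v ∈ Vm R c m ∧ m / 40 < (v 0).re + Pm R c (uu v) / 2 ∧
    (v 0).re + Lam c m (uu v) / 2 < m / 40}

/-- the domain of the middle chart -/
def DM (R c m : ℝ) : Set (Fin 3 → ℂ) :=
  {v | uu v ∈ Vm R c m ∧ kap R c v < -(m / 40) ∧ kah R c v < -(m / 40)}

/-- the standing hypotheses -/
def Hyp (R c m η : ℝ) : Prop := 0 < m ∧ m < c ∧ 2 * c ≤ R ∧ 0 < η ∧ η ≤ m / 40

/-- the domain of the strip map: near the puncture `θ` is not an integer -/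
def StripE (R c m η : ℝ) : Set (Fin 3 → ℂ) :=
  {w | uu w ∈ Vm R c m ∧ |(w 0).re| < Cm R c m (uu w) / 2 + m / 40 ∧
    (IntA w → |(w 0).re| < Cm R c m (uu w) / 2 - η)}

/-! ### The rows -/

/-- (DAT) existence of the data -/
def RowDat : Prop := ∀ R c m η : ℝ, Hyp R c m η → Nonempty (Dat R c m η)

/-- (LS) the left chart: smooth, symplectic, 1-periodic, injective on `DX` -/
def RowLS : Prop := ∀ (R c m η : ℝ) (D : Dat R c m η), Hyp R c m η →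
  (∀ v ∈ D.DX, ContDiffAt ℝ ∞ D.cL v) ∧
  (∀ v ∈ D.DX, ∀ x y, omega (fderiv ℝ D.cL v x) (fderiv ℝ D.cL v y) = omega x y) ∧
  (∀ v ∈ D.DX, ∀ l : ℤ, D.cL (sft l v) = D.cL v) ∧
  (∀ v ∈ D.DX, ∀ v' ∈ D.DX, D.cL v = D.cL v' → ∃ l : ℤ, v' = sft l v)

/-- (LA) the left chart: areas -/
def RowLA : Prop := ∀ (R c m η : ℝ) (D : Dat R c m η), Hyp R c m η → ∀ v ∈ DL R c m,
  v ∈ D.DX ∧ Tgt R c (D.cL v) ∧
  (kap R c v ≤ m / 20 → lim R (D.cL v) < (R - 2 * c) / 3 ∧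
    qim (D.cL v) ≤ (v 0).re + Lam c m (uu v) / 2) ∧
  (m / 20 ≤ kap R c v → lim R (D.cL v) = ar (v 1) + ar (v 2) - c + kap R c v ∧
    ar (D.cL v 1) = ar (v 2) ∧
    qim (D.cL v) ≤ -((min ((v 0).re + Pm R c (uu v) / 2) m - m / 100) / 2))

/-- (MS) the middle chart: smooth, symplectic, areas -/
def RowMS : Prop := ∀ (R c m η : ℝ) (D : Dat R c m η), Hyp R c m η → ∀ v ∈ DM R c m,
  ContDiffAt ℝ ∞ D.cM v ∧
  (∀ x y, omega (fderiv ℝ D.cM v x) (fderiv ℝ D.cM v y) = omega x y) ∧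
  Tgt R c (D.cM v) ∧ lim R (D.cM v) < (R - 2 * c) / 3 ∧
  (∃ Λ, 0 < Λ ∧ Λ ≤ Lam c m (uu v) ∧ qim (D.cM v) = D.qs ((v 0).re, Λ) ∧
    D.aM v = (v 0).im * (1 + deriv D.t (qim (D.cM v)) * Λ))

/-- (ML) the middle chart agrees with the left and with the right chart -/
def RowML : Prop := ∀ (R c m η : ℝ) (D : Dat R c m η), Hyp R c m η → ∀ v ∈ DM R c m,
  ((v 0).re + Lam c m (uu v) / 2 < -(η / 2) → D.cM v = D.cL v) ∧
  (η / 2 < (v 0).re - Lam c m (uu v) / 2 → D.cM v = D.cR v) ∧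
  (qim (D.cM v) < -(η / 2) → D.cM v = D.cL v ∧ v ∈ D.DX) ∧
  (η / 2 < qim (D.cM v) → D.cM v = D.cR v ∧ mir v ∈ D.DX)

/-- (MI) the middle chart is injective on real angles -/
def RowMI : Prop := ∀ (R c m η : ℝ) (D : Dat R c m η), Hyp R c m η →
  ∀ v ∈ DM R c m, ∀ v' ∈ DM R c m, D.cM v = D.cM v' →
    0 < D.aM v → D.aM v < 1 → 0 < D.aM v' → D.aM v' < 1 → v = v'

/-- (GC) the chart around the gate: smooth, symplectic, areas, injective, agreement -/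
def RowGC : Prop := ∀ (R c m η : ℝ) (D : Dat R c m η), Hyp R c m η →
  (∀ w, uu w ∈ Vm R c m → (R - 2 * c) / 3 + m / 2 < lw R w →
    ContDiffAt ℝ ∞ (G1c D.g3) w ∧
    (∀ x y, omega (fderiv ℝ (G1c D.g3) w x) (fderiv ℝ (G1c D.g3) w y) = omega x y) ∧
    Tgt R c (G1c D.g3 w) ∧ (R - 2 * c) / 3 + m / 2 < lim R (G1c D.g3 w) ∧
    ((R - 2 * c) / 3 + 3 * m / 4 < lw R w → (R - 2 * c) / 3 + 3 * m / 4 < lim R (G1c D.g3 w)) ∧
    (m / 40 < |(w 0).re| → lim R (G1c D.g3 w) = lw R w) ∧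
    (m / 40 < (w 0).re → G1c D.g3 w = D.cL (clift (FL D.t R c m) w)) ∧
    ((w 0).re < -(m / 40) → G1c D.g3 w = D.cR (clift (FR D.t R c m) w))) ∧
  (∀ w w', uu w ∈ Vm R c m → uu w' ∈ Vm R c m → G1c D.g3 w = G1c D.g3 w' →
    ∃ l : ℤ, w' = sft l w)

/-- (TQ) the change of time: positivity of the derivative, periodicity, seam -/
def RowTQ : Prop := ∀ (R c m η : ℝ) (D : Dat R c m η), Hyp R c m η →
  (∀ q : ℝ × (Fin 2 → ℝ), q.2 ∈ Vm R c m → 1 ≤ Fp (FL D.t R c m) q ∧ 1 ≤ Fp (FR D.t R c m) q) ∧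
  (∀ w, uu w ∈ Vm R c m → (w 0).re < Cm R c m (uu w) / 2 - η / 2 → ∀ l : ℤ,
    clift (FL D.t R c m) (sft l w) = sft l (clift (FL D.t R c m) w)) ∧
  (∀ w, uu w ∈ Vm R c m → -(Cm R c m (uu w) / 2) + η / 2 < (w 0).re → ∀ l : ℤ,
    clift (FR D.t R c m) (sft l w) = sft l (clift (FR D.t R c m) w)) ∧
  (∀ w, uu w ∈ Vm R c m → ¬ IntA w → D.vR (Tk (Cm R c m) 1 w) = D.vL w)

/-- (STRIP) the strip map -/
def RowStrip : Prop := ∀ (R c m η : ℝ) (D : Dat R c m η), Hyp R c m η →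
  (∀ w ∈ StripE R c m η, ContDiffAt ℝ ∞ D.G0 w) ∧
  (∀ w ∈ StripE R c m η, ∀ x y, omega (fderiv ℝ D.G0 w x) (fderiv ℝ D.G0 w y) = omega x y) ∧
  (∀ w ∈ StripE R c m η, Tgt R c (D.G0 w)) ∧
  (∀ w, uu w ∈ Vm R c m → |(w 0).re - Cm R c m (uu w) / 2| < m / 40 → ¬ IntA w →
    D.G0 (Tk (Cm R c m) 1 w) = D.G0 w) ∧
  (∀ w ∈ StripE R c m η, ∀ w' ∈ StripE R c m η, D.G0 w = D.G0 w' →
    ∃ n l : ℤ, w' = sft l (Tk (Cm R c m) n w))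

end Vale.Agent.P209.H687
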