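import Vale.Agent.P209.H687.Strip2

set_option linter.all false

/-!
# The strip map: smooth, symplectic, with values in the target
-/

namespace Vale.Agent.P209.H687

open Vale.Agent.P209 H684 H578 H721 H974 H686
open Vale.Agent.P209.Strong hiding chi
open scoped ContDiff

section main

variable {R c m η : ℝ} (D : Dat R c m η)

theorem Vm_isOpen (R c m : ℝ) : IsOpen (Vm R c m) := by
  have h0 : Continuous fun u : Fin 2 → ℝ => u 0 := continuous_apply 0
  have h1 : Continuous fun u : Fin 2 → ℝ => u 1 := continuous_apply 1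
  exact (isOpen_lt continuous_const h0).inter ((isOpen_lt continuous_const h1).inter
    ((isOpen_lt h0 continuous_const).inter (isOpen_lt (h0.add h1) continuous_const)))

theorem uuV_nhds {w : Fin 3 → ℂ} (hu : uu w ∈ Vm R c m) : ∀ᶠ x in nhds w, uu x ∈ Vm R c m :=
  uu_continuous.continuousAt.eventually ((Vm_isOpen R c m).mem_nhds hu)

theorem re0_cont : Continuous fun w : Fin 3 → ℂ => (w 0).re :=
  Complex.continuous_re.comp (continuous_apply 0)

theorem Lam_contDiff (c m : ℝ) : ContDiff ℝ ∞ (Lam c m) := by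
  have h0 : ∀ i : Fin 2, ContDiff ℝ ∞ (fun q : Fin 2 → ℝ => q i) := fun i =>
    contDiff_apply ℝ ℝ i
  unfold Lam
  have h2 := (chi_contDiff (m / 100)).comp (((h0 0).add (h0 1)).sub (contDiff_const (c := c)))
  exact ((((contDiff_const.mul (h0 0)).add (h0 1)).add (contDiff_const.mul h2)).add
    contDiff_const)

theorem Cm_contDiff (R c m : ℝ) : ContDiff ℝ ∞ (Cm R c m) := by
  have h0 : ∀ i : Fin 2, ContDiff ℝ ∞ (fun q : Fin 2 → ℝ => q i) := fun i =>
    contDiff_apply ℝ ℝ i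
  unfold Cm Pm
  exact ((contDiff_const.sub (contDiff_const.mul (h0 0))).sub (contDiff_const.mul (h0 1))).sub
    (Lam_contDiff c m)

theorem Cu_cont (R c m : ℝ) : Continuous fun w : Fin 3 → ℂ => Cm R c m (uu w) :=
  (Cm_contDiff R c m).continuous.comp uu_continuous

theorem lw_cont (R : ℝ) : Continuous (lw R) := by
  have h : lw R = fun w => R - 2 * (uu w 0 + uu w 1) - |(w 0).re| := by
    funext w; rfl
  rw [h]
  have h0 : Continuous fun w : Fin 3 → ℂ => uu w 0 := (continuous_apply 0).comp uu_continuous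
  have h1 : Continuous fun w : Fin 3 → ℂ => uu w 1 := (continuous_apply 1).comp uu_continuous
  exact ((continuous_const.sub (continuous_const.mul (h0.add h1)))).sub re0_cont.abs

theorem red_eventually {w : Fin 3 → ℂ} (hI : ¬ IntA w) :
    red =ᶠ[nhds w] fun x => sft (-⌊(w 0).im⌋) x := by
  filter_upwards [floor_eventually hI] with x hx
  unfold red
  rw [hx]

/-- The four local forms of the strip map. -/
theorem G0_local (hLS : RowLS) (hLA : RowLA) (hML : RowML) (hGC : RowGC) (hTQ : RowTQ)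
    (hH : Hyp R c m η) {w : Fin 3 → ℂ} (hw : w ∈ StripE R c m η) :
    ((R - 2 * c) / 3 + 3 * m / 4 < lw R w ∧ D.G0 =ᶠ[nhds w] G1c D.g3) ∨
    (m < (w 0).re ∧ (w 0).re < Cm R c m (uu w) / 2 - η / 2 ∧
      D.G0 =ᶠ[nhds w] fun x => D.cL (clift (FL D.t R c m) x)) ∨
    ((w 0).re < -m ∧ -(Cm R c m (uu w) / 2 - η / 2) < (w 0).re ∧
      D.G0 =ᶠ[nhds w] fun x => swp (D.cL (mir (clift (FR D.t R c m) x)))) ∨
    (¬ IntA w ∧ Cm R c m (uu w) / 2 - η / 2 ≤ (w 0).re ∧ D.vL w ∈ DM R c m ∧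
      D.G0 =ᶠ[nhds w] fun x => D.cM (clift (FL D.t R c m) (sft (-⌊(w 0).im⌋) x))) ∨
    (¬ IntA w ∧ (w 0).re ≤ -(Cm R c m (uu w) / 2 - η / 2) ∧ D.vR w ∈ DM R c m ∧
      D.G0 =ᶠ[nhds w] fun x => D.cM (clift (FR D.t R c m) (sft (-⌊(w 0).im⌋) x))) := by
  obtain ⟨hu, h1, h2⟩ := hw
  have hm := hH.1
  have hη := hH.2.2.2.1
  have hη' := hH.2.2.2.2
  by_cases hlw : (R - 2 * c) / 3 + 3 * m / 4 < lw R w
  · left
    refine ⟨hlw, ?_⟩
    filter_upwards [(lw_cont R).continuousAt.eventually (lt_mem_nhds hlw)] with x hx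
    exact G0_eqC D hx
  right
  have hbig : m < |(w 0).re| := by
    by_contra h
    push Not at h
    exact hlw (lw_of_small hH hu h)
  have hC := Cm_ge hH hu
  rcases le_total 0 (w 0).re with hs | hs
  · rw [abs_of_nonneg hs] at hbig h1 h2
    by_cases hq : (w 0).re < Cm R c m (uu w) / 2 - η / 2
    · left
      refine ⟨hbig, hq, ?_⟩
      have hq' : (w 0).re < (fun x => Cm R c m (uu x) / 2 - η / 2) w := hq
      filter_upwards [uuV_nhds hu, re0_cont.continuousAt.eventually (lt_mem_nhds hbig),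
        re0_cont.continuousAt.eventually_lt
          (((Cu_cont R c m).div_const 2).sub continuous_const).continuousAt hq'] with x k1 k2 k3
      exact G0_left D hLS hLA hML hGC hTQ hH k1 (by linarith) k3
    · right; right; left
      have hI : ¬ IntA w := fun hI => by have := h2 hI; linarith
      push Not at hq
      refine ⟨hI, hq, vL_mem_DM D hH hu (by linarith) h1.le, ?_⟩
      have hq1 : (fun x => Cm R c m (uu x) / 2 - m / 40) w < (w 0).re := by
        show Cm R c m (uu w) / 2 - m / 40 < _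
        linarith
      filter_upwards [uuV_nhds hu, (((Cu_cont R c m).div_const 2).sub
          continuous_const).continuousAt.eventually_lt re0_cont.continuousAt hq1,
        red_eventually hI] with x k1 k2 k3
      rw [G0_midL D hH k1 (le_of_lt k2)]
      unfold Dat.vL
      rw [k3]
  · rw [abs_of_nonpos hs] at hbig h1 h2
    by_cases hq : -(Cm R c m (uu w) / 2 - η / 2) < (w 0).re
    · right; left
      refine ⟨by linarith, hq, ?_⟩
      have hq' : (fun x => -(Cm R c m (uu x) / 2 - η / 2)) w < (w 0).re := hq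
      filter_upwards [uuV_nhds hu, re0_cont.continuousAt.eventually (gt_mem_nhds
          (show (w 0).re < -m by linarith)),
        ((((Cu_cont R c m).div_const 2).sub continuous_const).neg).continuousAt.eventually_lt
          re0_cont.continuousAt hq'] with x k1 k2 k3
      exact G0_right D hLS hLA hML hGC hTQ hH k1 (by linarith) k3
    · right; right; right
      have hI : ¬ IntA w := fun hI => by have := h2 hI; linarith
      push Not at hq
      refine ⟨hI, hq, vR_mem_DM D hH hu (by linarith) (by linarith), ?_⟩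
      have hq1 : (w 0).re < (fun x => -(Cm R c m (uu x) / 2 - m / 40)) w := by
        show _ < -(Cm R c m (uu w) / 2 - m / 40)
        linarith
      filter_upwards [uuV_nhds hu, re0_cont.continuousAt.eventually_lt
          ((((Cu_cont R c m).div_const 2).sub continuous_const).neg).continuousAt hq1,
        red_eventually hI] with x k1 k2 k3
      rw [G0_midR D hH k1 (le_of_lt k2)]
      unfold Dat.vR
      rw [k3]

theorem cliftL_mem (hLA : RowLA) (hH : Hyp R c m η) {w : Fin 3 → ℂ} (hu : uu w ∈ Vm R c m)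
    (hp : m < (w 0).re) (h : (w 0).re < Cm R c m (uu w) / 2 - η / 2) :
    clift (FL D.t R c m) w ∈ DL R c m :=
  mem_DL D hH hu (uu_clift _ _) (clift_re _ _) (by have := hH.1; linarith) h.le

theorem mir_cliftR (hTQ : RowTQ) (hH : Hyp R c m η) {w : Fin 3 → ℂ} (hu : uu w ∈ Vm R c m) :
    mir (clift (FR D.t R c m) w) = clift (FL D.t R c m) (mir w) := by
  have h3 := mir_clift D hTQ hH (w := mir w) (by rw [uu_mir]; exact hu)
    (fun q _ => (FL_contDiff D).contDiffAt)
  rw [mir_mir] at h3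
  rw [← h3, mir_mir]

theorem mir_cliftR_mem (hTQ : RowTQ) (hH : Hyp R c m η) {w : Fin 3 → ℂ}
    (hu : uu w ∈ Vm R c m) (hp : (w 0).re < -m)
    (h : -(Cm R c m (uu w) / 2 - η / 2) < (w 0).re) :
    mir (clift (FR D.t R c m) w) ∈ DL R c m := by
  rw [mir_cliftR D hTQ hH hu]
  exact mem_DL D hH (w := mir w) (by rw [uu_mir]; exact hu) (uu_clift _ _) (clift_re _ _)
    (by rw [mir_re]; have := hH.1; linarith) (by rw [mir_re, uu_mir]; linarith)

theorem vL_eq (w : Fin 3 → ℂ) :
    D.vL w = clift (FL D.t R c m) (sft (-⌊(w 0).im⌋) w) := rfl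

theorem vR_eq (w : Fin 3 → ℂ) :
    D.vR w = clift (FR D.t R c m) (sft (-⌊(w 0).im⌋) w) := rfl

/-- smooth and symplectic -/
theorem G0_smooth_sympl (hLS : RowLS) (hLA : RowLA) (hMS : RowMS) (hML : RowML) (hGC : RowGC)
    (hTQ : RowTQ) (hH : Hyp R c m η) {w : Fin 3 → ℂ} (hw : w ∈ StripE R c m η) :
    ContDiffAt ℝ ∞ D.G0 w ∧ SympAt D.G0 w := by
  have hu := hw.1
  have hm := hH.1
  have hs : ∀ l : ℤ, uu (sft l w) ∈ Vm R c m := fun l => by rw [uu_sft]; exact hu
  rcases G0_local D hLS hLA hML hGC hTQ hH hw with ⟨h1, he⟩ | ⟨h1, h2, he⟩ | ⟨h1, h2, he⟩ |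
    ⟨h1, _, h2, he⟩ | ⟨h1, _, h2, he⟩
  · obtain ⟨k1, k2, _⟩ := (hGC R c m η D hH).1 w hu (by linarith)
    exact ⟨k1.congr_of_eventuallyEq he,
      SympAt.congr ⟨k1.differentiableAt (by simp), k2⟩ he⟩
  · have hv := (hLA R c m η D hH _ (cliftL_mem D hLA hH hu h1 h2)).1
    have k1 := (hLS R c m η D hH).1 _ hv
    have k2 : SympAt D.cL (clift (FL D.t R c m) w) :=
      ⟨k1.differentiableAt (by simp), (hLS R c m η D hH).2.1 _ hv⟩
    exact ⟨(k1.comp w (cliftL_contDiffAt D hTQ hH hu)).congr_of_eventuallyEq he,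
      (k2.comp (cliftL_sympAt D hTQ hH hu)).congr he⟩
  · have hv := (hLA R c m η D hH _ (mir_cliftR_mem D hTQ hH hu h1 h2)).1
    have k1 := (hLS R c m η D hH).1 _ hv
    have k2 : SympAt D.cL (mir (clift (FR D.t R c m) w)) :=
      ⟨k1.differentiableAt (by simp), (hLS R c m η D hH).2.1 _ hv⟩
    have k3 : SympAt (fun x => mir (clift (FR D.t R c m) x)) w :=
      (mir_sympAt _).comp (cliftR_sympAt D hTQ hH hu)
    have k4 : ContDiffAt ℝ ∞ (fun x => mir (clift (FR D.t R c m) x)) w :=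
      (mir_contDiff.contDiffAt).comp w (cliftR_contDiffAt D hTQ hH hu)
    have k5 : ContDiffAt ℝ ∞ (fun x => D.cL (mir (clift (FR D.t R c m) x))) w := k1.comp w k4
    have k6 : SympAt (fun x => D.cL (mir (clift (FR D.t R c m) x))) w :=
      SympAt.comp (f := fun x => mir (clift (FR D.t R c m) x)) k2 k3
    exact ⟨((swp_contDiff.contDiffAt).comp w k5).congr_of_eventuallyEq he,
      ((swp_sympAt _).comp k6).congr he⟩
  · obtain ⟨k1, k2, _⟩ := hMS R c m η D hH _ h2
    rw [vL_eq] at k1 k2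
    have k3 : SympAt D.cM (clift (FL D.t R c m) (sft (-⌊(w 0).im⌋) w)) :=
      ⟨k1.differentiableAt (by simp), k2⟩
    have k4 : ContDiffAt ℝ ∞ (fun x => clift (FL D.t R c m) (sft (-⌊(w 0).im⌋) x)) w :=
      (cliftL_contDiffAt D hTQ hH (hs _)).comp w (sft_contDiff _).contDiffAt
    have k5 : SympAt (fun x => clift (FL D.t R c m) (sft (-⌊(w 0).im⌋) x)) w :=
      (cliftL_sympAt D hTQ hH (hs _)).comp (sft_sympAt _ _)
    have k6 : ContDiffAt ℝ ∞
        (fun x => D.cM (clift (FL D.t R c m) (sft (-⌊(w 0).im⌋) x))) w := k1.comp w k4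
    exact ⟨k6.congr_of_eventuallyEq he, (SympAt.comp
      (f := fun x => clift (FL D.t R c m) (sft (-⌊(w 0).im⌋) x)) k3 k5).congr he⟩
  · obtain ⟨k1, k2, _⟩ := hMS R c m η D hH _ h2
    rw [vR_eq] at k1 k2
    have k3 : SympAt D.cM (clift (FR D.t R c m) (sft (-⌊(w 0).im⌋) w)) :=
      ⟨k1.differentiableAt (by simp), k2⟩
    have k4 : ContDiffAt ℝ ∞ (fun x => clift (FR D.t R c m) (sft (-⌊(w 0).im⌋) x)) w :=
      (cliftR_contDiffAt D hTQ hH (hs _)).comp w (sft_contDiff _).contDiffAt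
    have k5 : SympAt (fun x => clift (FR D.t R c m) (sft (-⌊(w 0).im⌋) x)) w :=
      (cliftR_sympAt D hTQ hH (hs _)).comp (sft_sympAt _ _)
    have k6 : ContDiffAt ℝ ∞
        (fun x => D.cM (clift (FR D.t R c m) (sft (-⌊(w 0).im⌋) x))) w := k1.comp w k4
    exact ⟨k6.congr_of_eventuallyEq he, (SympAt.comp
      (f := fun x => clift (FR D.t R c m) (sft (-⌊(w 0).im⌋) x)) k3 k5).congr he⟩

/-- values in the target -/
theorem G0_Tgt (hLS : RowLS) (hLA : RowLA) (hMS : RowMS) (hML : RowML) (hGC : RowGC)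
    (hTQ : RowTQ) (hH : Hyp R c m η) {w : Fin 3 → ℂ} (hw : w ∈ StripE R c m η) :
    Tgt R c (D.G0 w) := by
  have hu := hw.1
  have hm := hH.1
  rcases G0_local D hLS hLA hML hGC hTQ hH hw with ⟨h1, he⟩ | ⟨h1, h2, he⟩ | ⟨h1, h2, he⟩ |
    ⟨h1, _, h2, he⟩ | ⟨h1, _, h2, he⟩
  · rw [he.eq_of_nhds]
    exact ((hGC R c m η D hH).1 w hu (by linarith)).2.2.1
  · rw [he.eq_of_nhds]
    exact (hLA R c m η D hH _ (cliftL_mem D hLA hH hu h1 h2)).2.1
  · rw [he.eq_of_nhds]
    rw [Tgt_swp]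
    exact (hLA R c m η D hH _ (mir_cliftR_mem D hTQ hH hu h1 h2)).2.1
  · rw [he.eq_of_nhds, ← vL_eq]
    exact (hMS R c m η D hH _ h2).2.2.1
  · rw [he.eq_of_nhds, ← vR_eq]
    exact (hMS R c m η D hH _ h2).2.2.1

/-- **The strip row, from the other rows and the injectivity clause.** -/
theorem rowStrip_of (hLS : RowLS) (hLA : RowLA) (hMS : RowMS) (hML : RowML) (hGC : RowGC)
    (hTQ : RowTQ)
    (hinj : ∀ (R c m η : ℝ) (D : Dat R c m η), Hyp R c m η →
      ∀ w ∈ StripE R c m η, ∀ w' ∈ StripE R c m η, D.G0 w = D.G0 w' →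
        ∃ n l : ℤ, w' = sft l (Tk (Cm R c m) n w)) : RowStrip := by
  intro R c m η D hH
  refine ⟨fun w hw => (G0_smooth_sympl D hLS hLA hMS hML hGC hTQ hH hw).1,
    fun w hw => (G0_smooth_sympl D hLS hLA hMS hML hGC hTQ hH hw).2.om,
    fun w hw => G0_Tgt D hLS hLA hMS hML hGC hTQ hH hw,
    fun w hu h hI => G0_seam D hTQ hH hu h hI, hinj R c m η D hH⟩

end main

end Vale.Agent.P209.H687
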