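import Vale.Agent.P209.H687.Num

set_option linter.all false

/-!
# The strip map: local forms
-/

namespace Vale.Agent.P209.H687

open Vale.Agent.P209 H684 H578 H721 H974 H686
open Vale.Agent.P209.Strong hiding chi
open scoped ContDiff

section mirror

theorem mir_mir (w : Fin 3 → ℂ) : mir (mir w) = w := by
  funext i
  fin_cases i <;> simp [mir]

theorem swp_swp (w : Fin 3 → ℂ) : swp (swp w) = w := by
  funext i
  fin_cases i <;> simp [swp]

theorem uu_mir (w : Fin 3 → ℂ) : uu (mir w) = uu w := by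
  funext i
  fin_cases i <;> rfl

theorem mir_re (w : Fin 3 → ℂ) : (mir w 0).re = -(w 0).re := by
  show (-(w 0)).re = _
  rw [Complex.neg_re]

theorem mir_im (w : Fin 3 → ℂ) : (mir w 0).im = -(w 0).im := by
  show (-(w 0)).im = _
  rw [Complex.neg_im]

theorem kap_mir (R c : ℝ) (v : Fin 3 → ℂ) : kap R c (mir v) = kah R c v := by
  rw [kap_eq, kah_eq, uu_mir, mir_re]
  ring

theorem kah_mir (R c : ℝ) (v : Fin 3 → ℂ) : kah R c (mir v) = kap R c v := by
  rw [kap_eq, kah_eq, uu_mir, mir_re]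
  ring

theorem mir_sft (l : ℤ) (w : Fin 3 → ℂ) : mir (sft l w) = sft (-l) (mir w) := by
  funext i
  fin_cases i
  · show -(sft l w 0) = sft (-l) (mir w) 0
    rw [sft_zero_slot, sft_zero_slot]
    show _ = -(w 0) + _
    push_cast
    ring
  · show sft l w (Fin.succ 0) = sft (-l) (mir w) (Fin.succ 0)
    rw [sft_succ, sft_succ]
    rfl
  · show sft l w (Fin.succ 1) = sft (-l) (mir w) (Fin.succ 1)
    rw [sft_succ, sft_succ]
    rfl

theorem swp_zero (Z : Fin 3 → ℂ) : swp Z 0 = Z 0 := rfl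
theorem swp_one (Z : Fin 3 → ℂ) : swp Z 1 = Z 2 := rfl
theorem swp_two (Z : Fin 3 → ℂ) : swp Z 2 = Z 1 := rfl

theorem Tgt_swp (R c : ℝ) (Z : Fin 3 → ℂ) : Tgt R c (swp Z) ↔ Tgt R c Z := by
  unfold Tgt
  rw [swp_zero, swp_one, swp_two]
  constructor <;> rintro ⟨h1, h2⟩ <;> exact ⟨h1, by linarith⟩

theorem lim_swp (R : ℝ) (Z : Fin 3 → ℂ) : lim R (swp Z) = lim R Z := by
  unfold lim
  rw [swp_zero, swp_one, swp_two]
  ring

theorem qim_swp (Z : Fin 3 → ℂ) : qim (swp Z) = -qim Z := by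
  unfold qim
  rw [swp_one, swp_two]
  ring

/-- the mirror as a linear map -/
noncomputable def mirL : (Fin 3 → ℂ) →L[ℝ] (Fin 3 → ℂ) :=
  ContinuousLinearMap.pi ![-ContinuousLinearMap.proj 0, ContinuousLinearMap.proj 1,
    ContinuousLinearMap.proj 2]

theorem mirL_apply (w : Fin 3 → ℂ) : mirL w = mir w := by
  funext i
  fin_cases i <;> simp [mirL, mir]

/-- the swap as a linear map -/
noncomputable def swpL : (Fin 3 → ℂ) →L[ℝ] (Fin 3 → ℂ) :=
  ContinuousLinearMap.pi ![ContinuousLinearMap.proj 0, ContinuousLinearMap.proj 2,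
    ContinuousLinearMap.proj 1]

theorem swpL_apply (w : Fin 3 → ℂ) : swpL w = swp w := by
  funext i
  fin_cases i <;> simp [swpL, swp]

theorem mir_fun : mir = fun w => mirL w := by funext w; rw [mirL_apply]
theorem swp_fun : swp = fun w => swpL w := by funext w; rw [swpL_apply]

theorem mir_contDiff : ContDiff ℝ ∞ mir := by
  rw [mir_fun]; exact mirL.contDiff

theorem swp_contDiff : ContDiff ℝ ∞ swp := by
  rw [swp_fun]; exact swpL.contDiff

theorem mir_sympAt (w : Fin 3 → ℂ) : SympAt mir w := by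
  refine ⟨mir_contDiff.contDiffAt.differentiableAt (by simp), fun v v' => ?_⟩
  have h : fderiv ℝ mir w = mirL := by rw [mir_fun]; exact mirL.fderiv
  rw [h, mirL_apply, mirL_apply]
  unfold omega
  rw [Fin.sum_univ_three, Fin.sum_univ_three]
  simp [mir]

theorem swp_sympAt (w : Fin 3 → ℂ) : SympAt swp w := by
  refine ⟨swp_contDiff.contDiffAt.differentiableAt (by simp), fun v v' => ?_⟩
  have h : fderiv ℝ swp w = swpL := by rw [swp_fun]; exact swpL.fderiv
  rw [h, swpL_apply, swpL_apply]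
  unfold omega
  rw [Fin.sum_univ_three, Fin.sum_univ_three]
  simp [swp]
  ring

end mirror

section main

variable {R c m η : ℝ} (D : Dat R c m η)

theorem cR_eq (v : Fin 3 → ℂ) : D.cR v = swp (D.cL (mir v)) := rfl

/-- local form: `G0` is the gate chart where `lw` is large -/
theorem G0_eqC {w : Fin 3 → ℂ} (h : (R - 2 * c) / 3 + 3 * m / 4 < lw R w) :
    D.G0 w = G1c D.g3 w := by
  unfold Dat.G0
  rw [if_pos h]

/-- `cL` does not see the reduction of the angle on the left plateau -/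
theorem cL_vL (hLS : RowLS) (hLA : RowLA) (hTQ : RowTQ) (hH : Hyp R c m η) {w : Fin 3 → ℂ}
    (hu : uu w ∈ Vm R c m) (hp : m / 40 < (w 0).re)
    (h : (w 0).re < Cm R c m (uu w) / 2 - η / 2) :
    D.cL (D.vL w) = D.cL (clift (FL D.t R c m) w) := by
  unfold Dat.vL red
  rw [(hTQ R c m η D hH).2.1 w hu h]
  have hv : clift (FL D.t R c m) w ∈ DL R c m :=
    mem_DL D hH hu (uu_clift _ _) (clift_re _ _) hp h.le
  exact (hLS R c m η D hH).2.2.1 _ (hLA R c m η D hH _ hv).1 _

/-- the right mirror of `clift FL` -/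
theorem mir_clift (hTQ : RowTQ) (hH : Hyp R c m η) {w : Fin 3 → ℂ} (hu : uu w ∈ Vm R c m)
    (hs : ∀ q : ℝ × (Fin 2 → ℝ), q.2 ∈ Vm R c m → ContDiffAt ℝ ∞ (FL D.t R c m) q) :
    mir (clift (FL D.t R c m) w) = clift (FR D.t R c m) (mir w) := by
  have hFR : FR D.t R c m = fun q => -FL D.t R c m (-q.1, q.2) := by
    funext q
    exact FR_eq_FL D q.1 q.2
  have hq : qq (mir w) = (-(w 0).re, uu w) := by
    unfold qq
    rw [mir_re, uu_mir]
  have h1 : HasFDerivAt (FL D.t R c m) (fderiv ℝ (FL D.t R c m) (qq w)) (qq w) :=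
    ((hs (qq w) hu).differentiableAt (by simp)).hasFDerivAt
  let N : (ℝ × (Fin 2 → ℝ)) →L[ℝ] (ℝ × (Fin 2 → ℝ)) :=
    (-(ContinuousLinearMap.fst ℝ ℝ (Fin 2 → ℝ))).prod (ContinuousLinearMap.snd ℝ ℝ (Fin 2 → ℝ))
  have hN : ∀ q, N q = (-q.1, q.2) := fun q => rfl
  have hNq : N (qq (mir w)) = qq w := by
    rw [hN, hq]
    show (- -(w 0).re, uu w) = qq w
    rw [neg_neg]
    rfl
  have h2 : HasFDerivAt (FR D.t R c m) (-((fderiv ℝ (FL D.t R c m) (qq w)).comp N))
      (qq (mir w)) := by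
    have h3 : HasFDerivAt (FL D.t R c m) (fderiv ℝ (FL D.t R c m) (qq w)) (N (qq (mir w))) := by
      rw [hNq]; exact h1
    have h4 := (h3.comp (qq (mir w)) N.hasFDerivAt).neg
    rw [hFR]
    exact h4
  have h5 := h2.fderiv
  have hp1 : Fp (FR D.t R c m) (qq (mir w)) = Fp (FL D.t R c m) (qq w) := by
    unfold Fp
    rw [h5]
    show -(fderiv ℝ (FL D.t R c m) (qq w) (N (1, 0))) = _
    rw [hN]
    show -(fderiv ℝ (FL D.t R c m) (qq w) (-1, 0)) = _
    rw [show ((-1 : ℝ), (0 : Fin 2 → ℝ)) = -((1 : ℝ), (0 : Fin 2 → ℝ)) by simp, map_neg, neg_neg]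
  have hp2 : ∀ b, Fu (FR D.t R c m) b (qq (mir w)) = -Fu (FL D.t R c m) b (qq w) := by
    intro b
    unfold Fu
    rw [h5]
    show -(fderiv ℝ (FL D.t R c m) (qq w) (N (0, Pi.single b 1))) = _
    rw [hN]
    simp
  have hp3 : ctau (FR D.t R c m) (mir w) = -ctau (FL D.t R c m) w := by
    unfold ctau
    rw [hp1, mir_im, neg_div]
  have hp4 : FR D.t R c m (qq (mir w)) = -FL D.t R c m (qq w) := by
    rw [hFR]
    show -FL D.t R c m (-(qq (mir w)).1, (qq (mir w)).2) = _
    rw [hq]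
    simp only [neg_neg]
    rfl
  funext i
  refine Fin.cases ?_ (fun b => ?_) i
  · show -(clift (FL D.t R c m) w 0) = _
    rw [clift_zero, clift_zero, hp3, hp4]
    push_cast
    ring
  · rw [clift_succ, hp3, hp2]
    have h6 : mir (clift (FL D.t R c m) w) b.succ = clift (FL D.t R c m) w b.succ := by
      fin_cases b <;> rfl
    have h7 : mir w b.succ = w b.succ := by fin_cases b <;> rfl
    rw [h6, h7, clift_succ]
    congr 2
    ring

end main

end Vale.Agent.P209.H687
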