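import Vale.Agent.P209.H687.Defs

set_option linter.all false

/-!
# Numbers for the strip map
-/

namespace Vale.Agent.P209.H687

open Vale.Agent.P209 H684 H578 H721 H974 H686
open Vale.Agent.P209.Strong hiding chi
open scoped ContDiff

section num

variable {R c m η : ℝ} {u : Fin 2 → ℝ}

theorem chi_ge (hm : 0 < m) (t : ℝ) : max t 0 ≤ H684.chi (m / 100) t := by
  obtain ⟨h1, h2⟩ := chi_nonneg_aux (d := m / 100) (t := t) (by positivity)
  exact max_le h2 h1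

theorem chi_le' (hm : 0 < m) (t : ℝ) : H684.chi (m / 100) t ≤ max t 0 + m / 100 :=
  chi_le (by positivity)

theorem Lam_ge (hm : 0 < m) :
    3 * u 0 + u 1 + 2 * max (u 0 + u 1 - c) 0 + m / 2 ≤ Lam c m u := by
  have := chi_ge hm (u 0 + u 1 - c)
  unfold Lam
  linarith

theorem Lam_le (hm : 0 < m) :
    Lam c m u ≤ 3 * u 0 + u 1 + 2 * max (u 0 + u 1 - c) 0 + m / 2 + m / 50 := by
  have := chi_le' hm (u 0 + u 1 - c)
  unfold Lam
  linarith

/-- `Λ > 0` on `Vm` -/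
theorem Lam_pos (hH : Hyp R c m η) (hu : u ∈ Vm R c m) : 0 < Lam c m u := by
  obtain ⟨hm, hc, hR, h0, h1⟩ := hH
  obtain ⟨a, b, _, _⟩ := hu
  have := Lam_ge (c := c) (u := u) hm
  have h2 : (0 : ℝ) ≤ max (u 0 + u 1 - c) 0 := le_max_right _ _
  linarith

/-- the two basic lengths -/
theorem len1 (hH : Hyp R c m η) (hu : u ∈ Vm R c m) : m < R - c - (u 0 + u 1) := by
  obtain ⟨hm, hc, hR, h0, h1⟩ := hH
  obtain ⟨_, _, _, h⟩ := hu
  linarith

theorem len2 (hH : Hyp R c m η) (hu : u ∈ Vm R c m) : 3 * m < R + c - 3 * (u 0 + u 1) := by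
  obtain ⟨_, _, _, h⟩ := hu
  linarith

theorem len3 (hH : Hyp R c m η) (hu : u ∈ Vm R c m) :
    m < R - c - (u 0 + u 1) - 2 * max (u 0 + u 1 - c) 0 := by
  have h1 := len1 hH hu
  have h2 := len2 hH hu
  have h3 := hH.1
  rcases le_total (u 0 + u 1 - c) 0 with h | h
  · rw [max_eq_right h]; linarith
  · rw [max_eq_left h]; linarith

/-- lower bound for the period -/
theorem Cm_ge (hH : Hyp R c m η) (hu : u ∈ Vm R c m) : 6 * m < Cm R c m u := by
  have h0 := Lam_le (c := c) (u := u) hH.1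
  obtain ⟨hm, hc, hR, _, _⟩ := hH
  obtain ⟨_, _, _, h⟩ := hu
  unfold Cm Pm
  rcases le_total (u 0 + u 1 - c) 0 with h1 | h1
  · rw [max_eq_right h1] at h0; linarith
  · rw [max_eq_left h1] at h0; linarith

theorem lw_eq (w : Fin 3 → ℂ) : lw R w = R - 2 * (uu w 0 + uu w 1) - |(w 0).re| := rfl

theorem lw_of_small {w : Fin 3 → ℂ} (hH : Hyp R c m η) (hu : uu w ∈ Vm R c m)
    (h : |(w 0).re| ≤ m) : (R - 2 * c) / 3 + 3 * m / 4 < lw R w := by
  obtain ⟨hm, hc, hR, _, _⟩ := hH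
  obtain ⟨_, _, _, h1⟩ := hu
  rw [lw_eq]
  linarith

/-- on the part `lw > l_0 + m / 2` one is far from the seam -/
theorem far_seam {w : Fin 3 → ℂ} (hH : Hyp R c m η) (hu : uu w ∈ Vm R c m)
    (h : (R - 2 * c) / 3 + m / 2 < lw R w) : |(w 0).re| < Cm R c m (uu w) / 2 - m := by
  have h0 := Lam_le (c := c) (u := uu w) hH.1
  obtain ⟨hm, hc, hR, _, _⟩ := hH
  obtain ⟨_, _, _, h1⟩ := hu
  rw [lw_eq] at h
  unfold Cm Pm
  rcases le_total (uu w 0 + uu w 1 - c) 0 with h2 | h2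
  · rw [max_eq_right h2] at h0; linarith
  · rw [max_eq_left h2] at h0; linarith

end num

section step

variable {R c m η : ℝ} (D : Dat R c m η)

theorem t_left (D : Dat R c m η) {q : ℝ} (h : q ≤ -(η / 2)) : D.t q = -(1 / 2) := by
  have h1 := D.ht.odd (-q)
  rw [neg_neg, D.ht.one (-q) (by linarith)] at h1
  exact h1

theorem t_ge (D : Dat R c m η) (q : ℝ) : -(1 / 2) ≤ D.t q := by
  have h1 := D.ht.odd q
  have h2 := D.ht.le_half (-q)
  linarith

theorem FL_left (D : Dat R c m η) {q : ℝ × (Fin 2 → ℝ)} (h : q.1 - Cm R c m q.2 / 2 ≤ -(η / 2)) :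
    FL D.t R c m q = q.1 - Pm R c q.2 / 2 := by
  unfold FL
  rw [t_left D h]
  unfold Cm
  ring

theorem FR_right (D : Dat R c m η) {q : ℝ × (Fin 2 → ℝ)} (h : η / 2 ≤ q.1 + Cm R c m q.2 / 2) :
    FR D.t R c m q = q.1 + Pm R c q.2 / 2 := by
  unfold FR
  rw [D.ht.one _ h]
  unfold Cm
  ring

theorem FR_eq_FL (D : Dat R c m η) (p : ℝ) (u : Fin 2 → ℝ) :
    FR D.t R c m (p, u) = -FL D.t R c m (-p, u) := by
  unfold FR FL
  simp only
  have h : -p - Cm R c m u / 2 = -(p + Cm R c m u / 2) := by ring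
  rw [h, D.ht.odd]
  ring

theorem red_re (w : Fin 3 → ℂ) : (red w 0).re = (w 0).re := sft_re _ _

theorem uu_red (w : Fin 3 → ℂ) : uu (red w) = uu w := uu_sft _ _

theorem qq_red (w : Fin 3 → ℂ) : qq (red w) = qq w := by
  unfold qq
  rw [red_re, uu_red]

theorem red_im (w : Fin 3 → ℂ) : (red w 0).im = Int.fract (w 0).im := by
  unfold red
  rw [sft_im, Int.fract]
  push_cast
  ring

theorem uu_vL (w : Fin 3 → ℂ) : uu (D.vL w) = uu w := by
  unfold Dat.vL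
  rw [uu_clift, uu_red]

theorem uu_vR (w : Fin 3 → ℂ) : uu (D.vR w) = uu w := by
  unfold Dat.vR
  rw [uu_clift, uu_red]

theorem vL_re (w : Fin 3 → ℂ) : (D.vL w 0).re = FL D.t R c m (qq w) := by
  unfold Dat.vL
  rw [clift_re, qq_red]

theorem vR_re (w : Fin 3 → ℂ) : (D.vR w 0).re = FR D.t R c m (qq w) := by
  unfold Dat.vR
  rw [clift_re, qq_red]

theorem kap_eq (v : Fin 3 → ℂ) : kap R c v = c - (R + c) / 2 - uu v 0 - (v 0).re := rfl

theorem kah_eq (v : Fin 3 → ℂ) : kah R c v = c - (R + c) / 2 - uu v 0 + (v 0).re := rfl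

/-- `Q` is at most `m / 40 + Λ / 2` -/
theorem FL_le (hH : Hyp R c m η) {q : ℝ × (Fin 2 → ℝ)} (hu : q.2 ∈ Vm R c m)
    (h : q.1 - Cm R c m q.2 / 2 ≤ m / 40) : FL D.t R c m q ≤ m / 40 + Lam c m q.2 / 2 := by
  have h1 := Lam_pos hH hu
  have h2 := D.ht.le_half (q.1 - Cm R c m q.2 / 2)
  unfold FL
  nlinarith

theorem FL_ge (hH : Hyp R c m η) {q : ℝ × (Fin 2 → ℝ)} (hu : q.2 ∈ Vm R c m)
    (h : -(m / 40) ≤ q.1 - Cm R c m q.2 / 2) : -(m / 40 + Lam c m q.2 / 2) ≤ FL D.t R c m q := by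
  have h1 := Lam_pos hH hu
  have h2 := t_ge D (q.1 - Cm R c m q.2 / 2)
  unfold FL
  nlinarith

/-- the corner gates are far from the seam -/
theorem corner_far (hH : Hyp R c m η) {u : Fin 2 → ℝ} (hu : u ∈ Vm R c m) {Q : ℝ}
    (h : Q ≤ m / 40 + Lam c m u / 2) : c - (R + c) / 2 - u 0 + Q < -(m / 5) := by
  have h1 := Lam_le (c := c) (u := u) hH.1
  have h2 := len3 hH hu
  have h3 := hH.1
  linarith

theorem kah_vL (hH : Hyp R c m η) {w : Fin 3 → ℂ} (hu : uu w ∈ Vm R c m)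
    (h : (w 0).re ≤ Cm R c m (uu w) / 2 + m / 40) : kah R c (D.vL w) < -(m / 5) := by
  rw [kah_eq, uu_vL, vL_re]
  exact corner_far hH hu (FL_le D hH (q := qq w) hu (by show (w 0).re - _ ≤ _; simp only [qq]; linarith))

theorem kap_vL_seam (hH : Hyp R c m η) {w : Fin 3 → ℂ} (hu : uu w ∈ Vm R c m)
    (h : Cm R c m (uu w) / 2 - m / 40 ≤ (w 0).re) : kap R c (D.vL w) < -(m / 5) := by
  rw [kap_eq, uu_vL, vL_re]
  have h1 := FL_ge D hH (q := qq w) hu (by show -(m / 40) ≤ (w 0).re - _; simp only [qq]; linarith)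
  have h2 := corner_far hH hu (Q := -FL D.t R c m (qq w)) (by
    show _ ≤ m / 40 + Lam c m (uu w) / 2
    have : Lam c m (qq w).2 = Lam c m (uu w) := rfl
    rw [this] at h1
    linarith)
  linarith

/-- `κ` on the left plateau -/
theorem kap_left (hH : Hyp R c m η) {w : Fin 3 → ℂ}
    (h : (w 0).re ≤ Cm R c m (uu w) / 2 - η / 2) :
    kap R c (D.vL w) = R + c - 3 * (uu w 0 + uu w 1) - (w 0).re := by
  rw [kap_eq, uu_vL, vL_re, FL_left D (by show (w 0).re - _ ≤ _; simp only [qq]; linarith)]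
  show c - (R + c) / 2 - uu w 0 - ((w 0).re - Pm R c (uu w) / 2) = _
  unfold Pm
  ring

/-- positive `κ` where `lw` is large -/
theorem kap_far (hH : Hyp R c m η) {w : Fin 3 → ℂ} (hu : uu w ∈ Vm R c m)
    (hp : 0 ≤ (w 0).re) (h : (R - 2 * c) / 3 + m / 2 < lw R w) : m < kap R c (D.vL w) := by
  have h1 := far_seam hH hu h
  rw [abs_of_nonneg hp] at h1
  have h4 := hH.2.2.2.2
  have h5 := hH.1
  rw [kap_left D hH (by linarith)]
  rw [lw_eq, abs_of_nonneg hp] at h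
  obtain ⟨_, _, _, h3⟩ := hu
  linarith

/-- the left plateau is in `DL` -/
theorem mem_DL (hH : Hyp R c m η) {w v : Fin 3 → ℂ} (hu : uu w ∈ Vm R c m)
    (hv : uu v = uu w) (hre : (v 0).re = FL D.t R c m (qq w))
    (hp : m / 40 < (w 0).re) (h : (w 0).re ≤ Cm R c m (uu w) / 2 - η / 2) : v ∈ DL R c m := by
  have h1 : FL D.t R c m (qq w) = (w 0).re - Pm R c (uu w) / 2 :=
    FL_left D (by show (w 0).re - _ ≤ _; simp only [qq]; linarith)
  have h2 := hH.2.2.2.1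
  have h3 := hH.1
  refine ⟨by rw [hv]; exact hu, ?_, ?_⟩
  · rw [hv, hre, h1]; linarith
  · rw [hv, hre, h1]
    unfold Cm at h
    linarith

end step

end Vale.Agent.P209.H687
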