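import Vale.Agent.P209.H687.Strip1

set_option linter.all false

/-!
# The strip map: the local forms of `G0`
-/

namespace Vale.Agent.P209.H687

open Vale.Agent.P209 H684 H578 H721 H974 H686
open Vale.Agent.P209.Strong hiding chi
open scoped ContDiff

section main

variable {R c m η : ℝ} (D : Dat R c m η)

theorem lw_mir (w : Fin 3 → ℂ) : lw R (mir w) = lw R w := by
  rw [lw_eq, lw_eq, uu_mir, mir_re, abs_neg]

theorem FL_contDiff : ContDiff ℝ ∞ (FL D.t R c m) := by
  have h0 : ∀ i : Fin 2, ContDiff ℝ ∞ (fun q : ℝ × (Fin 2 → ℝ) => q.2 i) := fun i =>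
    (contDiff_apply ℝ ℝ i).comp contDiff_snd
  have h1 : ContDiff ℝ ∞ (fun q : ℝ × (Fin 2 → ℝ) => Lam c m q.2) := by
    unfold Lam
    have h2 := (chi_contDiff (m / 100)).comp (((h0 0).add (h0 1)).sub
      (contDiff_const (c := c)))
    exact ((((contDiff_const.mul (h0 0)).add (h0 1)).add (contDiff_const.mul h2)).add
      contDiff_const)
  have h3 : ContDiff ℝ ∞ (fun q : ℝ × (Fin 2 → ℝ) => q.1 - Cm R c m q.2 / 2) := by
    unfold Cm Pm
    exact contDiff_fst.sub (((((contDiff_const.sub (contDiff_const.mul (h0 0))).sub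
      (contDiff_const.mul (h0 1)))).sub h1).div_const _)
  exact h3.add ((D.ht.smooth.comp h3).mul h1)

theorem FR_contDiff : ContDiff ℝ ∞ (FR D.t R c m) := by
  have h : FR D.t R c m = fun q => -FL D.t R c m (-q.1, q.2) := by
    funext q
    exact FR_eq_FL D q.1 q.2
  rw [h]
  exact ((FL_contDiff D).comp (contDiff_fst.neg.prodMk contDiff_snd)).neg

theorem cliftL_contDiffAt (hTQ : RowTQ) (hH : Hyp R c m η) {w : Fin 3 → ℂ}
    (hu : uu w ∈ Vm R c m) : ContDiffAt ℝ ∞ (clift (FL D.t R c m)) w :=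
  clift_contDiffAt (FL_contDiff D).contDiffAt
    (by have := ((hTQ R c m η D hH).1 (qq w) hu).1; linarith)

theorem cliftR_contDiffAt (hTQ : RowTQ) (hH : Hyp R c m η) {w : Fin 3 → ℂ}
    (hu : uu w ∈ Vm R c m) : ContDiffAt ℝ ∞ (clift (FR D.t R c m)) w :=
  clift_contDiffAt (FR_contDiff D).contDiffAt
    (by have := ((hTQ R c m η D hH).1 (qq w) hu).2; linarith)

theorem cliftL_sympAt (hTQ : RowTQ) (hH : Hyp R c m η) {w : Fin 3 → ℂ}
    (hu : uu w ∈ Vm R c m) : SympAt (clift (FL D.t R c m)) w :=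
  ⟨(cliftL_contDiffAt D hTQ hH hu).differentiableAt (by simp),
    clift_sympl (FL_contDiff D).contDiffAt
      (by have := ((hTQ R c m η D hH).1 (qq w) hu).1; linarith)⟩

theorem cliftR_sympAt (hTQ : RowTQ) (hH : Hyp R c m η) {w : Fin 3 → ℂ}
    (hu : uu w ∈ Vm R c m) : SympAt (clift (FR D.t R c m)) w :=
  ⟨(cliftR_contDiffAt D hTQ hH hu).differentiableAt (by simp),
    clift_sympl (FR_contDiff D).contDiffAt
      (by have := ((hTQ R c m η D hH).1 (qq w) hu).2; linarith)⟩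

/-- the two mirror forms of the right plateau -/
theorem cR_clift (hTQ : RowTQ) (hH : Hyp R c m η) {w : Fin 3 → ℂ} (hu : uu w ∈ Vm R c m) :
    D.cR (clift (FR D.t R c m) w) = swp (D.cL (clift (FL D.t R c m) (mir w))) := by
  have h := mir_clift D hTQ hH (w := mir w) (by rw [uu_mir]; exact hu)
    (fun q _ => (FL_contDiff D).contDiffAt)
  rw [mir_mir] at h
  rw [cR_eq, ← h, mir_mir]

/-- **the left plateau** -/
theorem G0_left (hLS : RowLS) (hLA : RowLA) (hML : RowML) (hGC : RowGC) (hTQ : RowTQ)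
    (hH : Hyp R c m η) {w : Fin 3 → ℂ} (hu : uu w ∈ Vm R c m) (hp : m / 40 < (w 0).re)
    (h : (w 0).re < Cm R c m (uu w) / 2 - η / 2) :
    D.G0 w = D.cL (clift (FL D.t R c m) w) := by
  have hm := hH.1
  by_cases hlw : (R - 2 * c) / 3 + 3 * m / 4 < lw R w
  · rw [G0_eqC D hlw]
    exact (((hGC R c m η D hH).1 w hu (by linarith)).2.2.2.2.2.2.1) hp
  · unfold Dat.G0
    rw [if_neg hlw, if_pos (by linarith)]
    unfold Dat.TopL
    by_cases hk : -(m / 20) < kap R c (D.vL w)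
    · rw [if_pos hk]
      exact cL_vL D hLS hLA hTQ hH hu hp h
    · rw [if_neg hk, ← cL_vL D hLS hLA hTQ hH hu hp h]
      have hη := hH.2.2.2.1
      have h1 := kah_vL D hH hu (by linarith)
      refine (hML R c m η D hH (D.vL w) ⟨by rw [uu_vL]; exact hu, by linarith, by linarith⟩).1 ?_
      rw [vL_re, uu_vL, FL_left D (by show (w 0).re - _ ≤ _; simp only [qq]; linarith)]
      show (w 0).re - Pm R c (uu w) / 2 + Lam c m (uu w) / 2 < _
      unfold Cm at h
      linarith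

/-- `cR` does not see the reduction of the angle on the right plateau -/
theorem cR_vR (hLS : RowLS) (hLA : RowLA) (hTQ : RowTQ) (hH : Hyp R c m η) {w : Fin 3 → ℂ}
    (hu : uu w ∈ Vm R c m) (hp : (w 0).re < -(m / 40))
    (h : -(Cm R c m (uu w) / 2 - η / 2) < (w 0).re) :
    D.cR (D.vR w) = D.cR (clift (FR D.t R c m) w) := by
  unfold Dat.vR red
  rw [(hTQ R c m η D hH).2.2.1 w hu (by linarith), cR_eq, cR_eq, mir_sft]
  have hv : mir (clift (FR D.t R c m) w) ∈ DL R c m := by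
    have h2 : mir (clift (FR D.t R c m) w) = clift (FL D.t R c m) (mir w) := by
      have h3 := mir_clift D hTQ hH (w := mir w) (by rw [uu_mir]; exact hu)
        (fun q _ => (FL_contDiff D).contDiffAt)
      rw [mir_mir] at h3
      rw [← h3, mir_mir]
    rw [h2]
    exact mem_DL D hH (w := mir w) (by rw [uu_mir]; exact hu) (uu_clift _ _) (clift_re _ _)
      (by rw [mir_re]; linarith) (by rw [mir_re, uu_mir]; linarith)
  rw [(hLS R c m η D hH).2.2.1 _ (hLA R c m η D hH _ hv).1 _]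

theorem kah_vR (hH : Hyp R c m η) {w : Fin 3 → ℂ} (hu : uu w ∈ Vm R c m)
    (h : -(Cm R c m (uu w) / 2 + m / 40) ≤ (w 0).re) : kap R c (D.vR w) < -(m / 5) := by
  have h1 := kah_vL D hH (w := mir w) (by rw [uu_mir]; exact hu)
    (by rw [uu_mir, mir_re]; linarith)
  rw [kah_eq, uu_vL, vL_re, uu_mir] at h1
  rw [kap_eq, uu_vR, vR_re]
  have h2 : FR D.t R c m (qq w) = -FL D.t R c m (qq (mir w)) := by
    have h3 : qq (mir w) = (-(w 0).re, uu w) := by
      unfold qq
      rw [mir_re, uu_mir]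
    rw [h3]
    exact FR_eq_FL D _ _
  rw [h2]
  linarith

theorem kah_vR_seam (hH : Hyp R c m η) {w : Fin 3 → ℂ} (hu : uu w ∈ Vm R c m)
    (h : (w 0).re ≤ -(Cm R c m (uu w) / 2 - m / 40)) : kah R c (D.vR w) < -(m / 5) := by
  have h1 := kap_vL_seam D hH (w := mir w) (by rw [uu_mir]; exact hu)
    (by rw [uu_mir, mir_re]; linarith)
  rw [kap_eq, uu_vL, vL_re, uu_mir] at h1
  rw [kah_eq, uu_vR, vR_re]
  have h2 : FR D.t R c m (qq w) = -FL D.t R c m (qq (mir w)) := by
    have h3 : qq (mir w) = (-(w 0).re, uu w) := by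
      unfold qq
      rw [mir_re, uu_mir]
    rw [h3]
    exact FR_eq_FL D _ _
  rw [h2]
  linarith

/-- **the right plateau** -/
theorem G0_right (hLS : RowLS) (hLA : RowLA) (hML : RowML) (hGC : RowGC) (hTQ : RowTQ)
    (hH : Hyp R c m η) {w : Fin 3 → ℂ} (hu : uu w ∈ Vm R c m) (hp : (w 0).re < -(m / 40))
    (h : -(Cm R c m (uu w) / 2 - η / 2) < (w 0).re) :
    D.G0 w = D.cR (clift (FR D.t R c m) w) := by
  have hm := hH.1
  by_cases hlw : (R - 2 * c) / 3 + 3 * m / 4 < lw R w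
  · rw [G0_eqC D hlw]
    exact (((hGC R c m η D hH).1 w hu (by linarith)).2.2.2.2.2.2.2) hp
  · unfold Dat.G0
    rw [if_neg hlw, if_neg (by linarith)]
    unfold Dat.TopR
    by_cases hk : -(m / 20) < kah R c (D.vR w)
    · rw [if_pos hk]
      exact cR_vR D hLS hLA hTQ hH hu hp h
    · rw [if_neg hk, ← cR_vR D hLS hLA hTQ hH hu hp h]
      have hη := hH.2.2.2.1
      have h1 := kah_vR D hH hu (by linarith)
      refine (hML R c m η D hH (D.vR w) ⟨by rw [uu_vR]; exact hu, by linarith, by linarith⟩).2.1 ?_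
      rw [vR_re, uu_vR, FR_right D (by show _ ≤ (w 0).re + _; simp only [qq]; linarith)]
      show _ < (w 0).re + Pm R c (uu w) / 2 - Lam c m (uu w) / 2
      unfold Cm at h
      linarith

/-- where `lw` is small near the seam -/
theorem lw_seam (hH : Hyp R c m η) {w : Fin 3 → ℂ} (hu : uu w ∈ Vm R c m)
    (h : Cm R c m (uu w) / 2 - m / 40 ≤ |(w 0).re|) :
    ¬ (R - 2 * c) / 3 + 3 * m / 4 < lw R w := by
  intro h1
  have hm := hH.1
  have h2 := far_seam hH hu (w := w) (by linarith)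
  linarith

/-- **the left side of the seam** -/
theorem G0_midL (hH : Hyp R c m η) {w : Fin 3 → ℂ} (hu : uu w ∈ Vm R c m)
    (h : Cm R c m (uu w) / 2 - m / 40 ≤ (w 0).re) : D.G0 w = D.cM (D.vL w) := by
  have hm := hH.1
  have hC := Cm_ge hH hu
  unfold Dat.G0
  rw [if_neg (lw_seam hH hu (h.trans (le_abs_self _))), if_pos (by linarith)]
  unfold Dat.TopL
  rw [if_neg]
  have := kap_vL_seam D hH hu h
  linarith

/-- **the right side of the seam** -/
theorem G0_midR (hH : Hyp R c m η) {w : Fin 3 → ℂ} (hu : uu w ∈ Vm R c m)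
    (h : (w 0).re ≤ -(Cm R c m (uu w) / 2 - m / 40)) : D.G0 w = D.cM (D.vR w) := by
  have hm := hH.1
  have hC := Cm_ge hH hu
  unfold Dat.G0
  rw [if_neg (lw_seam hH hu (by
    have := neg_abs_le (w 0).re
    linarith)), if_neg (by linarith)]
  unfold Dat.TopR
  rw [if_neg]
  have := kah_vR_seam D hH hu h
  linarith

theorem vL_mem_DM (hH : Hyp R c m η) {w : Fin 3 → ℂ} (hu : uu w ∈ Vm R c m)
    (h : Cm R c m (uu w) / 2 - m / 40 ≤ (w 0).re)
    (h' : (w 0).re ≤ Cm R c m (uu w) / 2 + m / 40) : D.vL w ∈ DM R c m := by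
  have hm := hH.1
  have h1 := kap_vL_seam D hH hu h
  have h2 := kah_vL D hH hu h'
  exact ⟨by rw [uu_vL]; exact hu, by linarith, by linarith⟩

theorem vR_mem_DM (hH : Hyp R c m η) {w : Fin 3 → ℂ} (hu : uu w ∈ Vm R c m)
    (h : (w 0).re ≤ -(Cm R c m (uu w) / 2 - m / 40))
    (h' : -(Cm R c m (uu w) / 2 + m / 40) ≤ (w 0).re) : D.vR w ∈ DM R c m := by
  have hm := hH.1
  have h1 := kah_vR_seam D hH hu h
  have h2 := kah_vR D hH hu h'
  exact ⟨by rw [uu_vR]; exact hu, by linarith, by linarith⟩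

/-- **the seam clause** -/
theorem G0_seam (hTQ : RowTQ) (hH : Hyp R c m η) {w : Fin 3 → ℂ} (hu : uu w ∈ Vm R c m)
    (h : |(w 0).re - Cm R c m (uu w) / 2| < m / 40) (hI : ¬ IntA w) :
    D.G0 (Tk (Cm R c m) 1 w) = D.G0 w := by
  obtain ⟨h1, h2⟩ := abs_lt.1 h
  rw [G0_midL D hH hu (by linarith), G0_midR D hH (w := Tk (Cm R c m) 1 w)
    (by rw [uu_Tk]; exact hu) (by rw [uu_Tk, Tk_re]; push_cast; linarith),
    (hTQ R c m η D hH).2.2.2 w hu hI]

end main

end Vale.Agent.P209.H687
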